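import Mathlib

open Polynomial Complex MeasureTheory Metric

noncomputable section

namespace P110N

/-- number of zeros (with multiplicity) in the open unit disc -/
def inn (p : ℂ[X]) : ℕ := (p.roots.countP (fun z => ‖z‖ < 1))

theorem integrable_inv (α : ℂ) (h : ‖α‖ ≠ 1) : CircleIntegrable (fun z => (z - α)⁻¹) 0 1 := by
  apply ContinuousOn.circleIntegrable zero_le_one
  apply ContinuousOn.inv₀ (by fun_prop)
  intro z hz h0
  rw [mem_sphere_zero_iff_norm] at hz
  rw [sub_eq_zero] at h0
  exact h (h0 ▸ hz)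

theorem circ_inv (α : ℂ) (h : ‖α‖ ≠ 1) :
    (∮ z in C(0, 1), (z - α)⁻¹) = if ‖α‖ < 1 then 2 * Real.pi * I else 0 := by
  split_ifs with h1
  · exact circleIntegral.integral_sub_inv_of_mem_ball (by simpa using h1)
  · have h2 : 1 < ‖α‖ := lt_of_le_of_ne (not_lt.1 h1) (Ne.symm h)
    apply DiffContOnCl.circleIntegral_eq_zero zero_le_one
    apply DifferentiableOn.diffContOnCl
    rw [closure_ball (0 : ℂ) one_ne_zero]
    intro z hz
    have hz' : ‖z‖ ≤ 1 := by simpa using hz
    have hne : z - α ≠ 0 := by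
      intro h0
      rw [sub_eq_zero] at h0
      rw [h0] at hz'
      linarith
    apply DifferentiableAt.differentiableWithinAt
    exact ((differentiableAt_id.sub_const α).inv hne)

theorem integrable_sum (s : Multiset ℂ) (h : ∀ α ∈ s, ‖α‖ ≠ 1) :
    CircleIntegrable (fun z => (s.map (fun α => (z - α)⁻¹)).sum) 0 1 := by
  induction s using Multiset.induction_on with
  | empty => simp
  | cons a s ih =>
    have h1 := ih (fun α hα => h α (Multiset.mem_cons_of_mem hα))
    have h2 := integrable_inv a (h a (Multiset.mem_cons_self a s))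
    have h3 := h2.add h1
    convert h3 using 2
    simp

theorem circ_sum (s : Multiset ℂ) (h : ∀ α ∈ s, ‖α‖ ≠ 1) :
    (∮ z in C(0, 1), (s.map (fun α => (z - α)⁻¹)).sum)
      = 2 * Real.pi * I * (s.countP (fun z => ‖z‖ < 1) : ℕ) := by
  induction s using Multiset.induction_on with
  | empty => simp [circleIntegral]
  | cons a s ih =>
    have h1 := ih (fun α hα => h α (Multiset.mem_cons_of_mem hα))
    have h2 := integrable_inv a (h a (Multiset.mem_cons_self a s))
    have h3 := integrable_sum s (fun α hα => h α (Multiset.mem_cons_of_mem hα))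
    simp only [Multiset.map_cons, Multiset.sum_cons]
    rw [circleIntegral.integral_add h2 h3, h1, circ_inv a (h a (Multiset.mem_cons_self a s)),
      Multiset.countP_cons]
    split_ifs with h4
    · push_cast; ring
    · push_cast; ring

theorem logder (p : ℂ[X]) (hp : ∀ z : ℂ, ‖z‖ = 1 → p.eval z ≠ 0) :
    (∮ z in C(0, 1), p.derivative.eval z / p.eval z) = 2 * Real.pi * I * (inn p : ℕ) := by
  have h1 : ∀ α ∈ p.roots, ‖α‖ ≠ 1 := by
    intro α hα h
    exact hp α h ((mem_roots'.1 hα).2)
  rw [inn, ← circ_sum p.roots h1]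
  apply circleIntegral.integral_congr zero_le_one
  intro z hz
  rw [mem_sphere_zero_iff_norm] at hz
  have h2 := (IsAlgClosed.splits p).eval_derivative_div_eval_of_ne_zero (hp z hz)
  simp only [one_div] at h2
  exact h2

theorem integrable_logder (p : ℂ[X]) (hp : ∀ z : ℂ, ‖z‖ = 1 → p.eval z ≠ 0) :
    CircleIntegrable (fun z => p.derivative.eval z / p.eval z) 0 1 := by
  apply ContinuousOn.circleIntegrable zero_le_one
  apply ContinuousOn.div (by fun_prop) (by fun_prop)
  intro z hz
  exact hp z (by simpa using hz)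

/-- Rouché's theorem for polynomials on the unit circle -/
theorem rouche (p q : ℂ[X])
    (h : ∀ z : ℂ, ‖z‖ = 1 → ‖q.eval z - p.eval z‖ < ‖p.eval z‖) : inn q = inn p := by
  have hp : ∀ z : ℂ, ‖z‖ = 1 → p.eval z ≠ 0 := by
    intro z hz h0
    have := h z hz
    rw [h0, norm_zero] at this
    exact absurd this (not_lt.2 (norm_nonneg _))
  have hq : ∀ z : ℂ, ‖z‖ = 1 → q.eval z ≠ 0 := by
    intro z hz h0
    have := h z hz
    rw [h0, zero_sub, norm_neg] at this
    exact lt_irrefl _ this
  have h0 : (∮ z in C(0, 1), (q.derivative.eval z / q.eval z - p.derivative.eval z / p.eval z))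
      = 0 := by
    apply circleIntegral.integral_eq_zero_of_hasDerivWithinAt'
      (f := fun z => Complex.log (q.eval z / p.eval z))
    intro z hz
    have hz1 : ‖z‖ = 1 := by simpa using hz
    have hpz := hp z hz1
    have hqz := hq z hz1
    have hd : HasDerivAt (fun z => q.eval z / p.eval z)
        ((q.derivative.eval z * p.eval z - q.eval z * p.derivative.eval z) / (p.eval z) ^ 2) z :=
      (q.hasDerivAt z).div (p.hasDerivAt z) hpz
    have hs : q.eval z / p.eval z ∈ slitPlane := by
      have h1 : q.eval z / p.eval z = 1 + (q.eval z - p.eval z) / p.eval z := by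
        field_simp
        ring
      rw [h1]
      apply Complex.mem_slitPlane_of_norm_lt_one
      rw [norm_div, div_lt_one (norm_pos_iff.2 hpz)]
      exact h z hz1
    have h2 := hd.clog hs
    have h3 : (q.derivative.eval z * p.eval z - q.eval z * p.derivative.eval z) / (p.eval z) ^ 2
        / (q.eval z / p.eval z)
        = q.derivative.eval z / q.eval z - p.derivative.eval z / p.eval z := by
      field_simp
    rw [h3] at h2
    exact h2.hasDerivWithinAt
  rw [circleIntegral.integral_sub (integrable_logder q hq) (integrable_logder p hp),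
    logder q hq, logder p hp, sub_eq_zero] at h0
  have h4 : (2 * Real.pi * I : ℂ) ≠ 0 := Complex.two_pi_I_ne_zero
  have h5 := mul_left_cancel₀ h4 h0
  exact_mod_cast h5

theorem inn_le (p : ℂ[X]) : inn p ≤ p.natDegree :=
  (Multiset.countP_le_card _ _).trans (card_roots' p)

theorem prod_max (s : Multiset ℂ) (h : ∀ α ∈ s, (1 / 2 : ℝ) ≤ ‖α‖) :
    (s.map (fun a => max 1 ‖a‖)).prod
      ≤ (s.map (fun a => ‖a‖)).prod * 2 ^ (s.countP (fun z => ‖z‖ < 1)) := by
  induction s using Multiset.induction_on with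
  | empty => simp
  | cons a s ih =>
    have h1 := ih (fun α hα => h α (Multiset.mem_cons_of_mem hα))
    have h2 := h a (Multiset.mem_cons_self a s)
    simp only [Multiset.map_cons, Multiset.prod_cons, Multiset.countP_cons]
    have h3 : (0 : ℝ) ≤ (s.map (fun a => ‖a‖)).prod * 2 ^ (s.countP (fun z => ‖z‖ < 1)) := by
      apply mul_nonneg _ (by positivity)
      apply Multiset.prod_nonneg
      intro x hx
      obtain ⟨y, _, rfl⟩ := Multiset.mem_map.1 hx
      exact norm_nonneg _
    split_ifs with h4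
    · rw [max_eq_left h4.le, one_mul, pow_succ]
      calc (s.map (fun a => max 1 ‖a‖)).prod
          ≤ (s.map (fun a => ‖a‖)).prod * 2 ^ (s.countP (fun z => ‖z‖ < 1)) := h1
        _ ≤ (2 * ‖a‖) * ((s.map (fun a => ‖a‖)).prod * 2 ^ (s.countP (fun z => ‖z‖ < 1))) := by
            apply le_mul_of_one_le_left h3
            linarith
        _ = _ := by ring
    · rw [max_eq_right (not_lt.1 h4), add_zero, mul_assoc]
      exact mul_le_mul_of_nonneg_left h1 (norm_nonneg _)

theorem min_le (p : ℂ[X]) (h0 : ‖p.coeff 0‖ = 1) (hr : ∀ α ∈ p.roots, (1 / 2 : ℝ) ≤ ‖α‖)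
    (m : ℝ) (hm : 0 < m) (h : ∀ z : ℂ, ‖z‖ = 1 → m ≤ ‖p.eval z‖) : m ≤ 2 ^ (inn p) := by
  have hp0 : p ≠ 0 := by
    rintro rfl
    simp at h0
  have h1 : Real.log m ≤ p.logMahlerMeasure := by
    rw [logMahlerMeasure_def]
    rw [← Real.circleAverage_const (Real.log m) 0 1]
    apply Real.circleAverage_mono
    · exact circleIntegrable_const _ _ _
    · apply ContinuousOn.circleIntegrable zero_le_one
      apply ContinuousOn.log (by fun_prop)
      intro z hz
      have := h z (by simpa using hz)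
      exact (lt_of_lt_of_le hm this).ne'
    · intro z hz
      exact Real.log_le_log hm (h z (by simpa using hz))
  have h2 : m ≤ p.mahlerMeasure := by
    rw [logMahlerMeasure_eq_log_MahlerMeasure] at h1
    exact (Real.log_le_log_iff hm (mahlerMeasure_pos_of_ne_zero hp0)).1 h1
  rw [mahlerMeasure_eq_leadingCoeff_mul_prod_roots] at h2
  have h3 : ‖p.coeff 0‖ = ‖p.leadingCoeff‖ * (p.roots.map (fun a => ‖a‖)).prod := by
    have h4 := (IsAlgClosed.splits p).eq_prod_roots
    rw [coeff_zero_eq_eval_zero]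
    conv_lhs => rw [h4]
    rw [eval_mul, eval_C, norm_mul]
    congr 1
    rw [eval_multiset_prod, Multiset.map_map]
    generalize p.roots = s
    induction s using Multiset.induction_on with
    | empty => simp
    | cons a s ih =>
      simp only [Multiset.map_cons, Multiset.prod_cons, norm_mul]
      rw [ih]
      simp
  calc m ≤ ‖p.leadingCoeff‖ * (p.roots.map (fun a => max 1 ‖a‖)).prod := h2
    _ ≤ ‖p.leadingCoeff‖ * ((p.roots.map (fun a => ‖a‖)).prod * 2 ^ (inn p)) :=
        mul_le_mul_of_nonneg_left (prod_max p.roots hr) (norm_nonneg _)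
    _ = ‖p.coeff 0‖ * 2 ^ (inn p) := by rw [h3]; ring
    _ = 2 ^ (inn p) := by rw [h0, one_mul]

theorem geo_half (n : ℕ) (r : ℝ) (hr0 : 0 ≤ r) (hr : r < 1 / 2) :
    ∑ k ∈ Finset.range n, r ^ (k + 1) < 1 := by
  have h1 : ∀ n : ℕ, ∑ k ∈ Finset.range n, r ^ (k + 1) ≤ 1 - (1 / 2 : ℝ) ^ n := by
    intro n
    induction n with
    | zero => simp
    | succ n ih =>
      rw [Finset.sum_range_succ]
      have h2 : r ^ (n + 1) ≤ (1 / 2 : ℝ) ^ (n + 1) := pow_le_pow_left₀ hr0 hr.le _
      have h3 : (1 / 2 : ℝ) ^ (n + 1) = (1 / 2 : ℝ) ^ n * (1 / 2) := pow_succ _ _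
      linarith
  have h4 := h1 n
  have h5 : (0 : ℝ) < (1 / 2 : ℝ) ^ n := by positivity
  linarith

theorem root_ge (p : ℂ[X]) (h0 : ‖p.coeff 0‖ = 1) (h1 : ∀ k, ‖p.coeff k‖ ≤ 1) :
    ∀ α ∈ p.roots, (1 / 2 : ℝ) ≤ ‖α‖ := by
  intro α hα
  by_contra hlt
  rw [not_le] at hlt
  have h2 : p.eval α = 0 := (mem_roots'.1 hα).2
  rw [eval_eq_sum_range, Finset.sum_range_succ'] at h2
  simp only [pow_zero, mul_one] at h2
  have h3 : p.coeff 0 = - ∑ k ∈ Finset.range p.natDegree, p.coeff (k + 1) * α ^ (k + 1) := by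
    linear_combination h2
  have h4 : ‖p.coeff 0‖ ≤ ∑ k ∈ Finset.range p.natDegree, ‖α‖ ^ (k + 1) := by
    rw [h3, norm_neg]
    refine (norm_sum_le _ _).trans (Finset.sum_le_sum ?_)
    intro k _
    rw [norm_mul, norm_pow]
    exact mul_le_of_le_one_left (by positivity) (h1 _)
  have h5 := geo_half p.natDegree ‖α‖ (norm_nonneg _) hlt
  linarith

end P110N
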