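import Mathlib

open Filter

noncomputable section

namespace P110N

/-- `ε` is a sequence of signs. -/
def IsSign (ε : ℕ → ℝ) : Prop := ∀ k, ε k = 1 ∨ ε k = -1

/-- The real Littlewood polynomial of length `N` with coefficients `ε 0, …, ε (N - 1)`:
`P(z) = ∑_{k < N} ε_k z^k`. -/
def lit (ε : ℕ → ℝ) (N : ℕ) (z : ℂ) : ℂ := ∑ k ∈ Finset.range N, (ε k : ℂ) * z ^ k

/-- The sequence of Littlewood polynomials `P_j = lit (ε j) (N j)` is ultraflat:
the lengths tend to infinity and `max_{|z| = 1} | |P_j(z)| / √N_j - 1 | → 0`. -/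
def Ultraflat (N : ℕ → ℕ) (ε : ℕ → ℕ → ℝ) : Prop :=
  Tendsto N atTop atTop ∧
    ∀ δ : ℝ, 0 < δ → ∀ᶠ j in atTop, ∀ z : ℂ, ‖z‖ = 1 →
      |‖lit (ε j) (N j) z‖ / Real.sqrt (N j) - 1| ≤ δ

/-- The `k`-th coefficient of `lit ε N` (zero for `k ≥ N`). -/
def coef (ε : ℕ → ℝ) (N k : ℕ) : ℝ := if k < N then ε k else 0

/-- The total change of the coefficients between the Littlewood polynomials `lit ε N` and
`lit ε' N'`: it equals `|N' - N| + 2 * #{k < min N N' : ε k ≠ ε' k}`. -/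
def change (ε : ℕ → ℝ) (N : ℕ) (ε' : ℕ → ℝ) (N' : ℕ) : ℝ :=
  ∑ k ∈ Finset.range (max N N'), |coef ε' N' k - coef ε N k|

end P110N
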