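import Vale.Agent.P110N.Core
import Vale.Agent.P110N.Defs

open Polynomial Filter

noncomputable section

namespace P110N

/-- the polynomial of `lit` -/
def litP (ε : ℕ → ℝ) (N : ℕ) : ℂ[X] := ∑ k ∈ Finset.range N, C (ε k : ℂ) * X ^ k

theorem litP_eval (ε : ℕ → ℝ) (N : ℕ) (z : ℂ) : (litP ε N).eval z = lit ε N z := by
  simp [litP, lit, eval_finsetSum]

theorem litP_coeff (ε : ℕ → ℝ) (N k : ℕ) :
    (litP ε N).coeff k = if k < N then (ε k : ℂ) else 0 := by
  simp [litP, coeff_C_mul, coeff_X_pow]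

theorem litP_natDegree (ε : ℕ → ℝ) (N : ℕ) : (litP ε N).natDegree ≤ N - 1 := by
  rw [natDegree_le_iff_coeff_eq_zero]
  intro k hk
  rw [litP_coeff, if_neg (by omega)]

theorem sign_norm {ε : ℕ → ℝ} (h : IsSign ε) (k : ℕ) : ‖(ε k : ℂ)‖ = 1 := by
  rcases h k with h | h <;> rw [h] <;> simp

theorem litP_min {ε : ℕ → ℝ} (h : IsSign ε) {N : ℕ} (hN : 0 < N) (m : ℝ) (hm : 0 < m)
    (hz : ∀ z : ℂ, ‖z‖ = 1 → m ≤ ‖lit ε N z‖) : m ≤ 2 ^ (inn (litP ε N)) := by
  have h0 : ‖(litP ε N).coeff 0‖ = 1 := by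
    rw [litP_coeff, if_pos hN, sign_norm h]
  have h1 : ∀ k, ‖(litP ε N).coeff k‖ ≤ 1 := by
    intro k
    rw [litP_coeff]
    split_ifs
    · rw [sign_norm h]
    · simp
  apply min_le (litP ε N) h0 (root_ge _ h0 h1) m hm
  intro z hz1
  rw [litP_eval]
  exact hz z hz1

/-- the number of zeros in the disc is constant along a chain, hence the minimum is bounded -/
theorem chain {N : ℕ → ℕ} {ε : ℕ → ℕ → ℝ} (hε : ∀ j, IsSign (ε j)) (hN : ∀ j, 0 < N j) (J : ℕ)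
    (hstep : ∀ j < J, ∀ z : ℂ, ‖z‖ = 1 →
      ‖lit (ε (j + 1)) (N (j + 1)) z - lit (ε j) (N j) z‖ < ‖lit (ε j) (N j) z‖) :
    ∃ z : ℂ, ‖z‖ = 1 ∧ ‖lit (ε J) (N J) z‖ ≤ 2 ^ (N 0 - 1) := by
  have h1 : ∀ j ≤ J, inn (litP (ε j) (N j)) = inn (litP (ε 0) (N 0)) := by
    intro j
    induction j with
    | zero => intro _; rfl
    | succ j ih =>
      intro hj
      rw [← ih (by omega)]
      apply rouche
      intro z hz
      rw [litP_eval, litP_eval]
      exact hstep j (by omega) z hz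
  have hcont : Continuous (fun z : ℂ => ‖lit (ε J) (N J) z‖) := by
    unfold lit
    fun_prop
  obtain ⟨z, hz, hmin⟩ := (isCompact_sphere (0 : ℂ) 1).exists_isMinOn
    (NormedSpace.sphere_nonempty.2 zero_le_one) hcont.continuousOn
  refine ⟨z, by simpa using hz, ?_⟩
  by_contra hlt
  rw [not_le] at hlt
  have hpos : 0 < ‖lit (ε J) (N J) z‖ := lt_trans (by positivity) hlt
  have h2 := litP_min (hε J) (hN J) _ hpos (fun w hw => hmin (by simpa using hw))
  rw [h1 J le_rfl] at h2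
  have h3 : inn (litP (ε 0) (N 0)) ≤ N 0 - 1 := (inn_le _).trans (litP_natDegree _ _)
  have h4 : (2 : ℝ) ^ (inn (litP (ε 0) (N 0))) ≤ 2 ^ (N 0 - 1) :=
    pow_le_pow_right₀ one_le_two h3
  linarith

theorem lit_sub (a : ℕ → ℝ) (ha : IsSign a) (N M : ℕ) (h : N ≤ M) (z : ℂ) (hz : ‖z‖ = 1) :
    ‖lit a M z - lit a N z‖ ≤ (M : ℝ) - N := by
  induction M, h using Nat.le_induction with
  | base => simp
  | succ M hM ih =>
    have h1 : lit a (M + 1) z - lit a N z = (lit a M z - lit a N z) + (a M : ℂ) * z ^ M := by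
      unfold lit
      rw [Finset.sum_range_succ]
      ring
    rw [h1]
    refine (norm_add_le _ _).trans ?_
    rw [norm_mul, sign_norm ha, norm_pow, hz, one_pow]
    push_cast
    linarith

/-- finite nested version -/
theorem nested_finite (a : ℕ → ℝ) (ha : IsSign a) (n N : ℕ) (hn : 0 < n) (hN : n ≤ N)
    (h : ∀ z : ℂ, ‖z‖ = 1 → (2 : ℝ) ^ (n - 1) < ‖lit a N z‖) :
    ∃ l, n ≤ l ∧ l < N ∧ ∃ z : ℂ, ‖z‖ = 1 ∧ ‖lit a l z‖ ≤ 1 := by
  by_contra hcon
  push Not at hcon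
  obtain ⟨z, hz, hle⟩ := chain (N := fun j => n + j) (ε := fun _ => a) (fun _ => ha)
    (fun j => by omega) (N - n) (by
      intro j hj z hz
      have h1 := hcon (n + j) (by omega) (by omega) z hz
      have h2 := lit_sub a ha (n + j) (n + (j + 1)) (by omega) z hz
      push_cast at h2
      refine lt_of_le_of_lt h2 ?_
      linarith)
  have h1 : n + (N - n) = N := by omega
  simp only [h1, add_zero] at hle
  exact absurd hle (not_le.2 (h z hz))

/-- infinite nested version -/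
theorem nested (a : ℕ → ℝ) (ha : IsSign a) :
    ∃ K : ℝ, ∃ᶠ N in atTop, ∃ z : ℂ, ‖z‖ = 1 ∧ ‖lit a N z‖ ≤ K := by
  by_cases h : ∃ᶠ N in atTop, ∃ z : ℂ, ‖z‖ = 1 ∧ ‖lit a N z‖ ≤ 1
  · exact ⟨1, h⟩
  · rw [not_frequently, eventually_atTop] at h
    obtain ⟨n0, hn0⟩ := h
    refine ⟨2 ^ ((n0 + 1) - 1), ?_⟩
    rw [frequently_atTop]
    intro M
    refine ⟨max M (n0 + 1), le_max_left _ _, ?_⟩
    by_contra hcon
    push Not at hcon
    obtain ⟨l, hl1, _, z, hz, hle⟩ := nested_finite a ha (n0 + 1) (max M (n0 + 1)) (by omega)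
      (le_max_right _ _) hcon
    exact hn0 l (by omega) ⟨z, hz, hle⟩

/-- a sequence of Littlewood polynomials with lengths tending to infinity and
`|P_j| ≥ c √N_j` must violate the Rouché condition infinitely often -/
theorem flat_jump {N : ℕ → ℕ} {ε : ℕ → ℕ → ℝ} (hε : ∀ j, IsSign (ε j))
    (hN : Tendsto N atTop atTop) (c : ℝ) (hc : 0 < c)
    (hflat : ∀ᶠ j in atTop, ∀ z : ℂ, ‖z‖ = 1 → c * Real.sqrt (N j) ≤ ‖lit (ε j) (N j) z‖) :
    ∃ᶠ j in atTop, ∃ z : ℂ, ‖z‖ = 1 ∧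
      ‖lit (ε j) (N j) z‖ ≤ ‖lit (ε (j + 1)) (N (j + 1)) z - lit (ε j) (N j) z‖ := by
  by_contra hcon
  rw [not_frequently] at hcon
  have hpos : ∀ᶠ j in atTop, 0 < N j := hN.eventually (eventually_gt_atTop 0)
  obtain ⟨j0, hj0⟩ := eventually_atTop.1 (hcon.and (hpos.and hflat))
  have hsq : Tendsto (fun j => c * Real.sqrt (N j)) atTop atTop := by
    apply Tendsto.const_mul_atTop hc
    exact Real.tendsto_sqrt_atTop.comp (tendsto_natCast_atTop_atTop.comp hN)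
  obtain ⟨j1, hj1⟩ := eventually_atTop.1 (hsq.eventually (eventually_gt_atTop ((2 : ℝ) ^ (N j0 - 1))))
  obtain ⟨z, hz, hle⟩ := chain (N := fun j => N (j0 + j)) (ε := fun j => ε (j0 + j))
    (fun j => hε _) (fun j => (hj0 (j0 + j) (by omega)).2.1) j1 (by
      intro j _ z hz
      have h1 := (hj0 (j0 + j) (by omega)).1
      push Not at h1
      exact h1 z hz)
  have h2 := (hj0 (j0 + j1) (by omega)).2.2 z hz
  have h3 := hj1 (j0 + j1) (by omega)
  simp only [add_zero] at hle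
  linarith

theorem ultraflat_lower {N : ℕ → ℕ} {ε : ℕ → ℕ → ℝ} (h : Ultraflat N ε) (c : ℝ) (hc : c < 1) :
    ∀ᶠ j in atTop, ∀ z : ℂ, ‖z‖ = 1 → c * Real.sqrt (N j) ≤ ‖lit (ε j) (N j) z‖ := by
  have h1 := h.2 (1 - c) (by linarith)
  have hpos : ∀ᶠ j in atTop, 0 < N j := h.1.eventually (eventually_gt_atTop 0)
  filter_upwards [h1, hpos] with j hj hNj z hz
  have h2 := (abs_le.1 (hj z hz)).1
  have h3 : (0 : ℝ) < Real.sqrt (N j) := Real.sqrt_pos.2 (by exact_mod_cast hNj)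
  have h4 : c ≤ ‖lit (ε j) (N j) z‖ / Real.sqrt (N j) := by linarith
  rwa [le_div_iff₀ h3] at h4

/-- along a nested sequence with short gaps -/
theorem nested_gaps (a : ℕ → ℝ) (ha : IsSign a) (c : ℝ) (hc : 0 < c) (N : ℕ → ℕ)
    (hN : Tendsto N atTop atTop) (hmono : Monotone N)
    (hgap : ∀ᶠ j in atTop, (N (j + 1) : ℝ) - N j < c * Real.sqrt (N j)) :
    ∃ᶠ j in atTop, ∃ z : ℂ, ‖z‖ = 1 ∧ ‖lit a (N j) z‖ < c * Real.sqrt (N j) := by
  by_contra hcon
  rw [not_frequently] at hcon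
  have hflat : ∀ᶠ j in atTop, ∀ z : ℂ, ‖z‖ = 1 → c * Real.sqrt (N j) ≤ ‖lit a (N j) z‖ := by
    filter_upwards [hcon] with j hj z hz
    push Not at hj
    exact hj z hz
  have h1 := flat_jump (ε := fun _ => a) (fun _ => ha) hN c hc hflat
  obtain ⟨j, ⟨z, hz, hle⟩, hg, hf⟩ := (h1.and_eventually (hgap.and hflat)).exists
  have h2 := lit_sub a ha (N j) (N (j + 1)) (hmono (Nat.le_succ j)) z hz
  have h3 := hf z hz
  linarith

theorem lit_coef (ε : ℕ → ℝ) (N M : ℕ) (h : N ≤ M) (z : ℂ) :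
    lit ε N z = ∑ k ∈ Finset.range M, (coef ε N k : ℂ) * z ^ k := by
  unfold lit
  rw [← Finset.sum_subset (Finset.range_mono h)]
  · apply Finset.sum_congr rfl
    intro k hk
    rw [coef, if_pos (Finset.mem_range.1 hk)]
  · intro k _ hk
    rw [coef, if_neg (fun h => hk (Finset.mem_range.2 h))]
    simp

theorem diff_le_change (ε ε' : ℕ → ℝ) (N N' : ℕ) (z : ℂ) (hz : ‖z‖ = 1) :
    ‖lit ε' N' z - lit ε N z‖ ≤ change ε N ε' N' := by
  rw [lit_coef ε' N' (max N N') (le_max_right _ _), lit_coef ε N (max N N') (le_max_left _ _),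
    ← Finset.sum_sub_distrib]
  refine (norm_sum_le _ _).trans (Finset.sum_le_sum ?_)
  intro k _
  rw [← sub_mul, norm_mul, norm_pow, hz, one_pow, mul_one, ← Complex.ofReal_sub,
    Complex.norm_real, Real.norm_eq_abs]

/-- consecutive members of an ultraflat sequence -/
theorem ultraflat_change {N : ℕ → ℕ} {ε : ℕ → ℕ → ℝ} (hε : ∀ j, IsSign (ε j))
    (h : Ultraflat N ε) (c : ℝ) (hc : c < 1) :
    ∃ᶠ j in atTop, c * Real.sqrt (N j) ≤ change (ε j) (N j) (ε (j + 1)) (N (j + 1)) := by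
  have h1 : max c (1 / 2) < 1 := max_lt hc (by norm_num)
  have h2 := ultraflat_lower h (max c (1 / 2)) h1
  have h3 := flat_jump hε h.1 (max c (1 / 2)) (lt_max_of_lt_right (by norm_num)) h2
  refine (h3.and_eventually h2).mono ?_
  rintro j ⟨⟨z, hz, hle⟩, hf⟩
  have h4 := diff_le_change (ε j) (ε (j + 1)) (N j) (N (j + 1)) z hz
  have h5 := hf z hz
  have h6 : c * Real.sqrt (N j) ≤ max c (1 / 2) * Real.sqrt (N j) :=
    mul_le_mul_of_nonneg_right (le_max_left _ _) (Real.sqrt_nonneg _)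
  linarith

end P110N
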